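import Mathlib

/-!
# P197: strip peelable partitions

`T : α → ℕ × ℕ` splits the letters into blocks by its first coordinate; in a labelling `S` of a
diagram `ν` every block is a horizontal strip or (when `vert` holds) a vertical strip, the blocks
coming in the order `ord`. The Specht module of `ν` then has an eigenvector of the block
stabiliser for the character `eps`.
-/

noncomputable section

namespace Vale.Agent.P197.Strip

open scoped Classical

variable {α : Type*} [Fintype α] {T S : α → ℕ × ℕ} {nu : YoungDiagram} {vert : ℕ → Prop}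
  {ord : ℕ → ℕ}

/-- Permutations which map every letter to a letter in the same row. -/
def rowPerms (T : α → ℕ × ℕ) : Finset (Equiv.Perm α) :=
  Finset.univ.filter fun g => ∀ x, (T (g x)).1 = (T x).1

/-- Permutations which map every letter to a letter in the same column. -/
def colPerms (T : α → ℕ × ℕ) : Finset (Equiv.Perm α) :=
  Finset.univ.filter fun g => ∀ x, (T (g x)).2 = (T x).2

/-- The sign of a permutation, as a complex number. -/
def sgn (g : Equiv.Perm α) : ℂ := ((Equiv.Perm.sign g : ℤ) : ℂ)

/-- `S` numbers the cells of the diagram `nu` bijectively. -/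
def IsLabelling (S : α → ℕ × ℕ) (nu : YoungDiagram) : Prop :=
  Function.Injective S ∧ Finset.univ.image S = nu.cells

lemma mem_rowPerms {g : Equiv.Perm α} : g ∈ rowPerms T ↔ ∀ x, (T (g x)).1 = (T x).1 := by
  simp [rowPerms]

lemma mem_colPerms {g : Equiv.Perm α} : g ∈ colPerms T ↔ ∀ x, (T (g x)).2 = (T x).2 := by
  simp [colPerms]

lemma one_mem_rowPerms : (1 : Equiv.Perm α) ∈ rowPerms T := by simp [mem_rowPerms]

lemma one_mem_colPerms : (1 : Equiv.Perm α) ∈ colPerms T := by simp [mem_colPerms]

lemma inv_mem_rowPerms {g : Equiv.Perm α} (h : g ∈ rowPerms T) : g⁻¹ ∈ rowPerms T :=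
  mem_rowPerms.2 fun x => by
    have := mem_rowPerms.1 h (g⁻¹ x)
    simpa using this.symm

lemma inv_mem_colPerms {g : Equiv.Perm α} (h : g ∈ colPerms T) : g⁻¹ ∈ colPerms T :=
  mem_colPerms.2 fun x => by
    have := mem_colPerms.1 h (g⁻¹ x)
    simpa using this.symm

lemma mul_mem_rowPerms {g h : Equiv.Perm α} (hg : g ∈ rowPerms T) (hh : h ∈ rowPerms T) :
    g * h ∈ rowPerms T :=
  mem_rowPerms.2 fun x => by rw [Equiv.Perm.mul_apply, mem_rowPerms.1 hg, mem_rowPerms.1 hh]

/-- The blocks of `T` are the strips of a peeling of `S`. -/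
structure Peel (T S : α → ℕ × ℕ) (vert : ℕ → Prop) (ord : ℕ → ℕ) : Prop where
  inj : ∀ x y, ord (T x).1 = ord (T y).1 → (T x).1 = (T y).1
  mono : ∀ x y, S x ≤ S y → ord (T x).1 ≤ ord (T y).1
  hor : ∀ x y, ¬ vert (T x).1 → (T x).1 = (T y).1 → (S x).2 = (S y).2 → x = y
  ver : ∀ x y, vert (T x).1 → (T x).1 = (T y).1 → (S x).1 = (S y).1 → x = y

/-- The part of a permutation acting on the vertical blocks. -/
def vertPerm (T : α → ℕ × ℕ) (vert : ℕ → Prop) (r : Equiv.Perm α) :
    Equiv.Perm α :=
  if h : ∀ x, vert (T (r x)).1 ↔ vert (T x).1 then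
    Equiv.Perm.ofSubtype (r.subtypePerm (p := fun x => vert (T x).1) h)
  else 1

/-- The linear character of the row stabiliser: sign on vertical blocks. -/
def eps (T : α → ℕ × ℕ) (vert : ℕ → Prop) (r : Equiv.Perm α) : ℂ :=
  sgn (vertPerm T vert r)

lemma vertPerm_apply {r : Equiv.Perm α} (hr : r ∈ rowPerms T) (x : α) :
    vertPerm T vert r x = if vert (T x).1 then r x else x := by
  have h : ∀ y, vert (T (r y)).1 ↔ vert (T y).1 := fun y => by rw [mem_rowPerms.1 hr]
  rw [vertPerm, dif_pos h]
  by_cases hx : vert (T x).1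
  · rw [if_pos hx]
    exact (Equiv.Perm.ofSubtype_apply_of_mem (p := fun x => vert (T x).1) _ hx).trans rfl
  · rw [if_neg hx]
    exact Equiv.Perm.ofSubtype_apply_of_not_mem (p := fun x => vert (T x).1) _ hx

lemma vertPerm_mul {r s : Equiv.Perm α} (hr : r ∈ rowPerms T) (hs : s ∈ rowPerms T) :
    vertPerm T vert (r * s) = vertPerm T vert r * vertPerm T vert s := by
  ext x
  simp only [vertPerm_apply (mul_mem_rowPerms hr hs), Equiv.Perm.mul_apply, vertPerm_apply hr,
    vertPerm_apply hs]
  split_ifs with h h'
  · rfl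
  · exact absurd (by rwa [mem_rowPerms.1 hs]) h'
  · rfl

lemma eps_mul {r s : Equiv.Perm α} (hr : r ∈ rowPerms T) (hs : s ∈ rowPerms T) :
    eps T vert (r * s) = eps T vert r * eps T vert s := by
  simp [eps, sgn, vertPerm_mul hr hs]

lemma eps_one : eps T vert 1 = 1 := by
  have : vertPerm T vert 1 = 1 := by
    ext x
    simp [vertPerm_apply one_mem_rowPerms]
  simp [eps, sgn, this]

lemma eps_sq (r : Equiv.Perm α) : eps T vert r * eps T vert r = 1 := by
  simp only [eps, sgn]
  rw [← Int.cast_mul, ← Units.val_mul, Int.units_mul_self]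
  simp

omit [Fintype α] in
lemma eq_of_le_perm {r : Equiv.Perm α} (s : Finset α) (f : α → ℕ)
    (hs : ∀ x, r x ∈ s ↔ x ∈ s) (h : ∀ x ∈ s, f x ≤ f (r x)) : ∀ x ∈ s, f x = f (r x) := by
  refine (Finset.sum_eq_sum_iff_of_le h).1 ?_
  exact (Finset.sum_equiv r (fun x => (hs x).symm) fun x _ => rfl).symm

lemma exists_preimage (hS : IsLabelling S nu) {x : α} {p : ℕ × ℕ} (hp : p ≤ S x) :
    ∃ u, S u = p := by
  have hx : S x ∈ nu.cells := hS.2 ▸ Finset.mem_image_of_mem S (Finset.mem_univ x)
  have : p ∈ nu.cells := nu.isLowerSet hp hx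
  rw [← hS.2] at this
  obtain ⟨u, -, hu⟩ := Finset.mem_image.1 this
  exact ⟨u, hu⟩

/-- A factorisation of a row permutation of `T` along `S` is block diagonal. -/
lemma factor_eq (hS : IsLabelling S nu) (hP : Peel T S vert ord) {r c r' : Equiv.Perm α}
    (hr : r ∈ rowPerms T) (hc : c ∈ colPerms S) (hr' : r' ∈ rowPerms S) (h : r = c * r') :
    c = vertPerm T vert r := by
  set k : α → ℕ := fun x => ord (T x).1 with hk
  have hkr : ∀ x, k (r x) = k x := fun x => by simp only [hk, mem_rowPerms.1 hr]
  have hrow : ∀ x, (S (r' x)).1 = (S x).1 := mem_rowPerms.1 hr'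
  have hcol : ∀ x, (S (r' x)).2 = (S (r x)).2 := fun x => by
    rw [h, Equiv.Perm.mul_apply, mem_colPerms.1 hc]
  set N := Finset.univ.sup k
  have main : ∀ d, ∀ x, N - k x = d → r' x = if vert (T x).1 then x else r x := by
    intro d
    induction d using Nat.strong_induction_on with
    | _ d ih =>
      intro x hx
      have hle : ∀ w, N - k w = d → k (r' w) ≤ k w := by
        intro w hw
        by_contra hlt
        push Not at hlt
        have hN : k (r' w) ≤ N := Finset.le_sup (Finset.mem_univ _)
        set y := r' w with hy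
        by_cases hv : vert (T y).1
        · have := ih _ (by omega) y rfl
          rw [if_pos hv] at this
          have : y = w := r'.injective (this.trans hy)
          rw [this] at hlt
          exact lt_irrefl _ hlt
        · have e1 : k (r⁻¹ y) = k y := by
            rw [← hkr (r⁻¹ y)]; simp
          have hv' : ¬ vert (T (r⁻¹ y)).1 := by
            rwa [hP.inj (r⁻¹ y) y e1]
          have := ih _ (by omega) (r⁻¹ y) rfl
          rw [if_neg hv'] at this
          have e2 : r⁻¹ y = w :=
            r'.injective (this.trans ((by simp : r (r⁻¹ y) = y).trans hy))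
          rw [← e2] at hlt
          omega
      have hblk : ∀ w u, k w = k u → (T w).1 = (T u).1 := fun w u e => hP.inj w u e
      set blk : Finset α := Finset.univ.filter fun w => k w = k x with hblk'
      have hmem : ∀ w, r w ∈ blk ↔ w ∈ blk := fun w => by simp [hblk', hkr]
      by_cases hv : vert (T x).1
      · rw [if_pos hv]
        have key : ∀ w ∈ blk, (S (r w)).2 ≤ (S w).2 := by
          intro w hw
          simp only [hblk', Finset.mem_filter, Finset.mem_univ, true_and] at hw
          have hvw : vert (T w).1 := by rwa [hblk w x hw]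
          by_contra hlt
          push Not at hlt
          by_cases hrw : (S w).1 ≤ (S (r w)).1
          · obtain ⟨u, hu⟩ := exists_preimage hS (x := r w) (p := ((S w).1, (S (r w)).2))
              ⟨hrw, le_rfl⟩
            have h1 := hP.mono w u (by rw [hu]; exact ⟨le_rfl, hlt.le⟩)
            have h2 := hP.mono u (r w) (by rw [hu]; exact ⟨hrw, le_rfl⟩)
            have h3 : k (r w) = k w := hkr w
            have := hP.ver w u hvw (hblk w u (by simp only [hk] at h3 ⊢; omega)) (by rw [hu])
            subst this
            rw [hu] at hlt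
            exact lt_irrefl _ hlt
          · have h1 := hP.mono w (r' w) ⟨(hrow w).ge, (hlt.le.trans (hcol w).ge)⟩
            have h2 := hle w (by omega)
            have := hP.ver w (r' w) hvw (hblk w (r' w) (le_antisymm h1 h2)) (hrow w).symm
            rw [← hcol w, ← this] at hlt
            exact lt_irrefl _ hlt
        have hmem' : ∀ w, r⁻¹ w ∈ blk ↔ w ∈ blk := fun w => by
          simpa using (hmem (r⁻¹ w)).symm
        have heq := eq_of_le_perm blk (fun w => (S w).2) hmem' (fun w hw => by
          simpa using key (r⁻¹ w) ((hmem' w).2 hw)) (r x) (by simp [hblk', hkr])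
        refine hS.1 (Prod.ext (hrow x) ?_)
        rw [hcol]
        simpa using heq
      · rw [if_neg hv]
        have key : ∀ w ∈ blk, (S w).1 ≤ (S (r w)).1 := by
          intro w hw
          simp only [hblk', Finset.mem_filter, Finset.mem_univ, true_and] at hw
          have hvw : ¬ vert (T w).1 := by rwa [hblk w x hw]
          have hvr : ¬ vert (T (r w)).1 := by rwa [mem_rowPerms.1 hr]
          by_contra hlt
          push Not at hlt
          by_cases hcw : (S (r w)).2 ≤ (S w).2
          · obtain ⟨u, hu⟩ := exists_preimage hS (x := w) (p := ((S w).1, (S (r w)).2))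
              ⟨le_rfl, hcw⟩
            have h1 := hP.mono (r w) u (by rw [hu]; exact ⟨hlt.le, le_rfl⟩)
            have h2 := hP.mono u w (by rw [hu]; exact ⟨le_rfl, hcw⟩)
            have h3 : k (r w) = k w := hkr w
            have := hP.hor (r w) u hvr (hblk (r w) u (by simp only [hk] at h3 ⊢; omega))
              (by rw [hu])
            rw [← this] at hu
            rw [hu] at hlt
            exact lt_irrefl _ hlt
          · push Not at hcw
            have h1 := hP.mono w (r' w) ⟨(hrow w).ge, (hcw.le.trans (hcol w).ge)⟩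
            have h2 := hle w (by omega)
            have := hP.hor (r w) (r' w) hvr
              (hblk _ _ ((hkr w).trans (le_antisymm h1 h2))) (hcol w).symm
            rw [this, hrow w] at hlt
            exact lt_irrefl _ hlt
        refine hS.1 (Prod.ext ?_ (hcol x))
        rw [hrow]
        exact eq_of_le_perm blk (fun w => (S w).1) hmem key x (by simp [hblk'])
  refine Equiv.ext fun x => ?_
  rw [vertPerm_apply hr]
  by_cases hv : vert (T x).1
  · have := main _ x rfl
    rw [if_pos hv] at this
    rw [if_pos hv, h, Equiv.Perm.mul_apply, this]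
  · have hv' : ¬ vert (T (r⁻¹ x)).1 := by
      rwa [mem_rowPerms.1 (inv_mem_rowPerms hr)]
    have := main _ (r⁻¹ x) rfl
    rw [if_neg hv'] at this
    have e := Equiv.congr_fun h (r⁻¹ x)
    simp only [Equiv.Perm.mul_apply] at e
    rw [this] at e
    rw [if_neg hv]
    simpa using e.symm

/-- The polytabloid of `S`, as a function on row assignments. -/
def poly (S : α → ℕ × ℕ) (t : α → ℕ) : ℂ :=
  ∑ c ∈ colPerms S, if t = fun x => (S (c x)).1 then sgn c else 0

/-- The Specht module of `S`: the span of the translates of its polytabloid. -/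
def specht (S : α → ℕ × ℕ) : Submodule ℂ ((α → ℕ) → ℂ) :=
  Submodule.span ℂ (Set.range fun g : Equiv.Perm α => fun t : α → ℕ => poly S (t ∘ g))

lemma mul_mem_colPerms {g h : Equiv.Perm α} (hg : g ∈ colPerms S) (hh : h ∈ colPerms S) :
    g * h ∈ colPerms S :=
  mem_colPerms.2 fun x => by rw [Equiv.Perm.mul_apply, mem_colPerms.1 hg, mem_colPerms.1 hh]

lemma poly_term (hS : IsLabelling S nu) (hP : Peel T S vert ord) {r : Equiv.Perm α}
    (hr : r ∈ rowPerms T) {c : Equiv.Perm α} (hc : c ∈ colPerms S)
    (he : (fun x => (S (r x)).1) = fun x => (S (c x)).1) : c = vertPerm T vert r := by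
  have hr' : c * r⁻¹ ∈ rowPerms S := mem_rowPerms.2 fun x => by
    have := congrFun he (r⁻¹ x)
    simpa using this.symm
  have e := factor_eq hS hP (inv_mem_rowPerms hr) (inv_mem_colPerms hc) hr' (by group)
  have e1 : vertPerm T vert r * vertPerm T vert r⁻¹ = 1 := by
    rw [← vertPerm_mul hr (inv_mem_rowPerms hr), mul_inv_cancel]
    ext x
    simp [vertPerm_apply one_mem_rowPerms]
  rw [← e] at e1
  exact (mul_inv_eq_one.1 e1).symm

/-- A strip peelable diagram gives the value of the symmetrised polytabloid. -/
theorem sum_eps_poly_ne_zero (hS : IsLabelling S nu) (hP : Peel T S vert ord) :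
    ∑ r ∈ rowPerms T, eps T vert r * poly S (fun x => (S (r x)).1) ≠ 0 := by
  have hterm : ∀ r ∈ rowPerms T, eps T vert r * poly S (fun x => (S (r x)).1)
      = if ∃ c ∈ colPerms S, (fun x => (S (r x)).1) = fun x => (S (c x)).1 then 1 else 0 := by
    intro r hr
    by_cases h : ∃ c ∈ colPerms S, (fun x => (S (r x)).1) = fun x => (S (c x)).1
    · obtain ⟨c, hc, he⟩ := h
      rw [if_pos ⟨c, hc, he⟩, poly, Finset.sum_eq_single_of_mem c hc fun c' hc' hne => if_neg
        fun he' => hne ((poly_term hS hP hr hc' he').trans (poly_term hS hP hr hc he).symm),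
        if_pos he, poly_term hS hP hr hc he]
      exact eps_sq r
    · rw [if_neg h, poly, Finset.sum_eq_zero fun c hc => if_neg fun he => h ⟨c, hc, he⟩, mul_zero]
  rw [Finset.sum_congr rfl hterm, Finset.sum_boole, Nat.cast_ne_zero]
  exact Finset.card_ne_zero.2 ⟨1, Finset.mem_filter.2
    ⟨one_mem_rowPerms, 1, one_mem_colPerms, rfl⟩⟩

/-- The Specht module of a strip peelable diagram has an eigenvector of the block stabiliser. -/
theorem exists_eigenvector (hS : IsLabelling S nu) (hP : Peel T S vert ord) :
    ∃ u ∈ specht S, u ≠ 0 ∧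
      ∀ r ∈ rowPerms T, (fun t : α → ℕ => u (t ∘ r)) = eps T vert r • u := by
  refine ⟨∑ r ∈ rowPerms T, eps T vert r • fun t : α → ℕ => poly S (t ∘ r),
    Submodule.sum_mem _ fun r _ => Submodule.smul_mem _ _ (Submodule.subset_span ⟨r, rfl⟩),
    fun h => sum_eps_poly_ne_zero hS hP ?_, fun r₀ hr => ?_⟩
  · have := congrFun h fun x => (S x).1
    simpa [Function.comp_def] using this
  · funext t
    simp only [Finset.sum_apply, Pi.smul_apply, smul_eq_mul, Finset.mul_sum]
    refine Finset.sum_nbij' (fun r => r₀ * r) (fun r => r₀⁻¹ * r)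
      (fun r h => mul_mem_rowPerms hr h) (fun r h => mul_mem_rowPerms (inv_mem_rowPerms hr) h)
      (fun r _ => by group) (fun r _ => by group) fun r h => ?_
    rw [eps_mul hr h, ← mul_assoc, ← mul_assoc, eps_sq, one_mul]
    rfl

end Vale.Agent.P197.Strip

end
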