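import Vale.Agent.P197.Specht.Class
import Vale.Agent.P197.Strip.Peel

/-!
# P197: strip peelable diagrams in the tensor square of the staircase
-/

noncomputable section

namespace Vale.Agent.P197.Strip

open scoped Classical TensorProduct
open Vale.Agent.P197

variable {m : ℕ} {nu : YoungDiagram} {vert : ℕ → Prop} {ord : ℕ → ℕ}

/-- The staircase as a labelling of its own boxes. -/
def boxT (b : Specht.Box m) : ℕ × ℕ := ((Specht.rowFn b : ℕ), (Specht.colFn b : ℕ))

theorem natAct_one_aux (m : ℕ) :
    (LinearMap.funLeft ℂ ℂ fun (t : Specht.Box m → ℕ) => t ∘ (1 : Specht.G m)) =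
      (1 : Module.End ℂ ((Specht.Box m → ℕ) → ℂ)) := rfl

theorem natAct_mul_aux (m : ℕ) (g h : Specht.G m) :
    (LinearMap.funLeft ℂ ℂ fun (t : Specht.Box m → ℕ) => t ∘ (g * h)) =
      (LinearMap.funLeft ℂ ℂ fun (t : Specht.Box m → ℕ) => t ∘ g) *
        ((LinearMap.funLeft ℂ ℂ fun (t : Specht.Box m → ℕ) => t ∘ h) :
          Module.End ℂ ((Specht.Box m → ℕ) → ℂ)) := rfl

/-- The symmetric group of the boxes acting on functions on assignments. -/
def natAct (m : ℕ) : Representation ℂ (Specht.G m) ((Specht.Box m → ℕ) → ℂ) where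
  toFun g := LinearMap.funLeft ℂ ℂ fun (t : Specht.Box m → ℕ) => t ∘ g
  map_one' := natAct_one_aux m
  map_mul' := natAct_mul_aux m

lemma natAct_mem (S : Specht.Box m → ℕ × ℕ) (g : Specht.G m) {x : (Specht.Box m → ℕ) → ℂ}
    (hx : x ∈ specht S) : natAct m g x ∈ specht S := by
  induction hx using Submodule.span_induction with
  | mem x hx =>
    obtain ⟨h, rfl⟩ := hx
    exact Submodule.subset_span ⟨g * h, rfl⟩
  | zero => simp
  | add a b _ _ ha hb => simpa using (specht S).add_mem ha hb
  | smul c a _ ha => simpa using (specht S).smul_mem c ha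

theorem specht_le_comap (S : Specht.Box m → ℕ × ℕ) (g : Specht.G m) :
    specht S ≤ (specht S).comap (natAct m g) := fun _ hx => natAct_mem S g hx

/-- The Specht module of a diagram with as many boxes as the staircase. -/
def spechtRep (S : Specht.Box m → ℕ × ℕ) : Representation ℂ (Specht.G m) (specht S) :=
  (natAct m).subrepresentation (specht S) (specht_le_comap S)

lemma mem_R_iff (g : Specht.G m) : g ∈ Specht.R m ↔ g ∈ rowPerms (boxT (m := m)) := by
  rw [mem_rowPerms]
  constructor
  · intro h b
    exact congrArg Fin.val (h b)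
  · intro h b
    exact Fin.ext (h b)

/-- The character of the row stabiliser of the staircase attached to a choice of strips. -/
def chiHom (m : ℕ) (vert : ℕ → Prop) : Specht.R m →* ℂ where
  toFun r := eps (boxT (m := m)) vert r
  map_one' := eps_one
  map_mul' r s := eps_mul ((mem_R_iff _).1 r.2) ((mem_R_iff _).1 s.2)

/-- A diagram which peels into strips of sizes `1, …, m` maps to the tensor square of the
staircase. -/
theorem exists_map_of_peel {S : Specht.Box m → ℕ × ℕ}
    (hS : IsLabelling S nu) (hP : Peel (boxT (m := m)) S vert ord) :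
    ∃ T : specht S →ₗ[ℂ] Specht.S m ⊗[ℂ] Specht.S m, T ≠ 0 ∧
      ∀ g x, T (spechtRep S g x) = (Specht.specht m).tprod (Specht.specht m) g (T x) := by
  obtain ⟨u, hu, hne, heig⟩ := exists_eigenvector hS hP
  refine Specht.exists_map_of_slice (Specht.slice (chiHom m vert)) (spechtRep S)
    (u := ⟨u, hu⟩) (fun e => hne (congrArg Subtype.val e)) fun r => Subtype.ext ?_
  exact heig r ((mem_R_iff _).1 r.2)

end Vale.Agent.P197.Strip

end
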